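import Vale.Agent.P038.LeadS.Defs

/-!
# P038 (H102S): (CHEB) by a discrete argument (no fair allocation)

Rows `B s ⊆ U s`, `X a` / `C a` the intersections of the rows `B z` / `U z` over the closed
in-neighbours `z` of `a`.  `cc S = w(N[S]) - w(S)` is submodular.  For a fixed linear order the
min-marginals of `K ↦ cc (B s ∪ K)` are dominated by those of `K ↦ cc (X a ∪ K)` whenever `R s a`.
-/

set_option linter.unusedSectionVars false

namespace Vale.Agent.P038.H102S

open Finset Vale.Agent.P038.LeadS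

variable {V : Type*} [Fintype V] [DecidableEq V]

/-- `c(S) = w(N[S]) - w(S)` -/
noncomputable def cc (R : V → V → Prop) (w : V → ℝ) (S : Finset V) : ℝ := W w (N R S) - W w S

theorem mem_N {R : V → V → Prop} {X : Finset V} {z : V} : z ∈ N R X ↔ ∃ x ∈ X, R x z := by
  classical
  unfold N
  rw [Finset.mem_filter]
  exact ⟨fun h => h.2, fun h => ⟨Finset.mem_univ _, h⟩⟩

theorem W_union_inter (w : V → ℝ) (S T : Finset V) :
    W w (S ∪ T) + W w (S ∩ T) = W w S + W w T := Finset.sum_union_inter

theorem W_mono {w : V → ℝ} (hw : ∀ v, 0 ≤ w v) {S T : Finset V} (h : S ⊆ T) : W w S ≤ W w T :=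
  Finset.sum_le_sum_of_subset_of_nonneg h (fun i _ _ => hw i)

theorem cc_submod {R : V → V → Prop} {w : V → ℝ} (hw : ∀ v, 0 ≤ w v) (S T : Finset V) :
    cc R w (S ∪ T) + cc R w (S ∩ T) ≤ cc R w S + cc R w T := by
  have h1 : N R (S ∪ T) = N R S ∪ N R T := by
    ext z
    simp only [mem_N, Finset.mem_union]
    constructor
    · rintro ⟨x, hx | hx, h⟩
      · exact Or.inl ⟨x, hx, h⟩
      · exact Or.inr ⟨x, hx, h⟩
    · rintro (⟨x, hx, h⟩ | ⟨x, hx, h⟩)
      · exact ⟨x, Or.inl hx, h⟩
      · exact ⟨x, Or.inr hx, h⟩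
  have h2 : N R (S ∩ T) ⊆ N R S ∩ N R T := by
    intro z hz
    obtain ⟨x, hx, h⟩ := mem_N.1 hz
    exact Finset.mem_inter.2 ⟨mem_N.2 ⟨x, (Finset.mem_inter.1 hx).1, h⟩,
      mem_N.2 ⟨x, (Finset.mem_inter.1 hx).2, h⟩⟩
  have h3 := W_mono hw h2
  have h4 := W_union_inter w (N R S) (N R T)
  have h5 := W_union_inter w S T
  unfold cc
  rw [h1]
  linarith

/-- finite layer cake -/
theorem layer_cake (p : V → ℝ) (hp : ∀ v, 0 ≤ p v) : ∀ (n : ℕ) (f g : V → ℝ),
    (univ.filter fun v => 0 < f v).card ≤ n → (∀ v, 0 ≤ f v) → (∀ v, 0 ≤ g v) →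
    (∀ t : ℝ, 0 < t → W p (univ.filter fun v => t ≤ f v) ≤ W p (univ.filter fun v => t ≤ g v)) →
    ∑ v, p v * f v ≤ ∑ v, p v * g v := by
  intro n
  induction n with
  | zero =>
    intro f g hn hf hg _
    have h0 : (univ.filter fun v => 0 < f v) = ∅ := Finset.card_eq_zero.1 (Nat.le_zero.1 hn)
    have h1 : ∑ v, p v * f v = 0 := by
      refine Finset.sum_eq_zero fun v _ => ?_
      have h2 : v ∉ (univ.filter fun v => 0 < f v) := by rw [h0]; exact Finset.notMem_empty v
      have h3 : ¬ 0 < f v := fun h => h2 (Finset.mem_filter.2 ⟨Finset.mem_univ _, h⟩)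
      have h4 : f v = 0 := le_antisymm (not_lt.1 h3) (hf v)
      rw [h4, mul_zero]
    rw [h1]
    exact Finset.sum_nonneg fun v _ => mul_nonneg (hp v) (hg v)
  | succ n ih =>
    intro f g hn hf hg hfg
    by_cases hne : (univ.filter fun v => 0 < f v).Nonempty
    · obtain ⟨u, hu, hmin⟩ := Finset.exists_min_image _ f hne
      have hm : 0 < f u := (Finset.mem_filter.1 hu).2
      set m := f u with hmdef
      have hcard : (univ.filter fun v => 0 < max (f v - m) 0).card ≤ n := by
        have h1 : (univ.filter fun v => 0 < max (f v - m) 0) ⊂ (univ.filter fun v => 0 < f v) := by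
          rw [Finset.ssubset_iff_of_subset]
          · refine ⟨u, hu, fun h => ?_⟩
            have h2 := (Finset.mem_filter.1 h).2
            rw [← hmdef, sub_self, max_self] at h2
            exact lt_irrefl _ h2
          · intro v hv
            have h2 := (Finset.mem_filter.1 hv).2
            refine Finset.mem_filter.2 ⟨Finset.mem_univ _, ?_⟩
            rcases lt_max_iff.1 h2 with h3 | h3
            · linarith
            · exact absurd h3 (lt_irrefl _)
        have h2 := Finset.card_lt_card h1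
        omega
      have hIH := ih (fun v => max (f v - m) 0) (fun v => max (g v - m) 0) hcard
        (fun v => le_max_right _ _) (fun v => le_max_right _ _) (by
          intro t ht
          have h1 := hfg (t + m) (by linarith)
          have key : ∀ h : V → ℝ, (univ.filter fun v => t ≤ max (h v - m) 0) =
              (univ.filter fun v => t + m ≤ h v) := by
            intro h
            ext v
            rw [Finset.mem_filter, Finset.mem_filter, le_max_iff]
            constructor
            · rintro ⟨h2, h3 | h3⟩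
              · exact ⟨h2, by linarith⟩
              · exact absurd h3 (not_le.2 ht)
            · rintro ⟨h2, h3⟩
              exact ⟨h2, Or.inl (by linarith)⟩
          rw [key f, key g]
          exact h1)
      have hF : ∑ v, p v * f v =
          ∑ v, p v * max (f v - m) 0 + m * W p (univ.filter fun v => m ≤ f v) := by
        unfold W
        rw [Finset.mul_sum, Finset.sum_filter, ← Finset.sum_add_distrib]
        refine Finset.sum_congr rfl fun v _ => ?_
        by_cases h : m ≤ f v
        · rw [if_pos h, max_eq_left (by linarith)]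
          ring
        · rw [if_neg h]
          have h2 : ¬ 0 < f v := by
            intro h3
            exact h (hmin v (Finset.mem_filter.2 ⟨Finset.mem_univ _, h3⟩))
          have h3 : f v = 0 := le_antisymm (not_lt.1 h2) (hf v)
          rw [h3, max_eq_right (by linarith)]
          ring
      have hG : ∑ v, p v * max (g v - m) 0 + m * W p (univ.filter fun v => m ≤ g v) ≤
          ∑ v, p v * g v := by
        unfold W
        rw [Finset.mul_sum, Finset.sum_filter, ← Finset.sum_add_distrib]
        refine Finset.sum_le_sum fun v _ => ?_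
        by_cases h : m ≤ g v
        · rw [if_pos h, max_eq_left (by linarith)]
          apply le_of_eq
          ring
        · rw [if_neg h, max_eq_right (by linarith [not_le.1 h])]
          have := mul_nonneg (hp v) (hg v)
          linarith
      have hM := mul_le_mul_of_nonneg_left (hfg m hm) hm.le
      linarith
    · refine ih f g ?_ hf hg hfg
      rw [Finset.not_nonempty_iff_eq_empty.1 hne, Finset.card_empty]
      exact Nat.zero_le _

/-- a minimiser between `K` and `G` -/
theorem exists_minset (c : Finset V → ℝ) {K G : Finset V} (h : K ⊆ G) :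
    ∃ M, K ⊆ M ∧ M ⊆ G ∧ ∀ K', K ⊆ K' → K' ⊆ G → c M ≤ c K' := by
  obtain ⟨M, hM, hmin⟩ := Finset.exists_min_image (G.powerset.filter fun K' => K ⊆ K') c
    ⟨G, Finset.mem_filter.2 ⟨Finset.mem_powerset.2 (Finset.Subset.refl _), h⟩⟩
  rw [Finset.mem_filter, Finset.mem_powerset] at hM
  exact ⟨M, hM.2, hM.1, fun K' h1 h2 =>
    hmin K' (Finset.mem_filter.2 ⟨Finset.mem_powerset.2 h2, h1⟩)⟩

/-- The row form of (CHEB). -/
theorem row_core (R : V → V → Prop) (p w : V → ℝ) (hp : ∀ a, 0 < p a)
    (hw : ∀ a, 0 < w a) (B U X C : V → Finset V) (hBU : ∀ s, B s ⊆ U s)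
    (hX : ∀ a y, y ∈ X a ↔ ∀ z, R z a → y ∈ B z)
    (hC : ∀ a y, y ∈ C a ↔ ∀ z, R z a → y ∈ U z)
    (hrow : ∀ s K, K ⊆ U s \ B s → cc R w (B s) ≤ cc R w (B s ∪ K))
    (hcol : ∀ y K, (∀ s ∈ K, y ∈ U s \ B s) →
      ∃ T : Finset V, (∀ v ∈ T, y ∈ C v ∧ ∃ z ∈ K, R z v) ∧ W p K ≤ W p T) :
    ∑ s, p s * (cc R w (U s) - cc R w (B s)) ≤ ∑ a, p a * (cc R w (C a) - cc R w (X a)) := by
  classical
  have hw' : ∀ v, 0 ≤ w v := fun v => (hw v).le
  have hp' : ∀ v, 0 ≤ p v := fun v => (hp v).le
  have hXB : ∀ {s a}, R s a → X a ⊆ B s := fun {s a} h y hy => (hX a y).1 hy s h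
  have hCU : ∀ {s a}, R s a → C a ⊆ U s := fun {s a} h y hy => (hC a y).1 hy s h
  have hXC : ∀ a, X a ⊆ C a := fun a y hy => (hC a y).2 fun z hz => hBU z ((hX a y).1 hy z hz)
  -- (D1)
  have D1 : ∀ n : ℕ, ∀ a : V, ∀ E' : Finset V, E'.card ≤ n → E' ⊆ C a \ X a →
      cc R w (X a) ≤ cc R w (X a ∪ E') := by
    intro n
    induction n with
    | zero =>
      intro a E' h1 _
      rw [Finset.card_eq_zero.1 (Nat.le_zero.1 h1), Finset.union_empty]
    | succ n ih =>
      intro a E' h1 h2
      rcases Finset.eq_empty_or_nonempty E' with h0 | ⟨e, he⟩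
      · rw [h0, Finset.union_empty]
      · have h3 := Finset.mem_sdiff.1 (h2 he)
        have h4 : ∃ s, R s a ∧ e ∉ B s := by
          by_contra hcon
          push Not at hcon
          exact h3.2 ((hX a e).2 hcon)
        obtain ⟨s, hs, hes⟩ := h4
        have h5 : (E' ∩ B s).card ≤ n := by
          have h6 : E' ∩ B s ⊂ E' := by
            rw [Finset.ssubset_iff_of_subset Finset.inter_subset_left]
            exact ⟨e, he, fun h => hes (Finset.mem_inter.1 h).2⟩
          have := Finset.card_lt_card h6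
          omega
        have h6 := ih a (E' ∩ B s) h5 (fun y hy => h2 (Finset.mem_inter.1 hy).1)
        have h7 := cc_submod (R := R) hw' (X a ∪ E') (B s)
        have h8 : (X a ∪ E') ∩ B s = X a ∪ (E' ∩ B s) := by
          ext y
          simp only [Finset.mem_inter, Finset.mem_union]
          constructor
          · rintro ⟨h | h, h'⟩
            · exact Or.inl h
            · exact Or.inr ⟨h, h'⟩
          · rintro (h | h)
            · exact ⟨Or.inl h, hXB hs h⟩
            · exact ⟨Or.inr h.1, h.2⟩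
        have h9 : (X a ∪ E') ∪ B s = B s ∪ (E' \ B s) := by
          ext y
          simp only [Finset.mem_union, Finset.mem_sdiff]
          constructor
          · rintro ((h | h) | h)
            · exact Or.inl (hXB hs h)
            · by_cases h' : y ∈ B s
              · exact Or.inl h'
              · exact Or.inr ⟨h, h'⟩
            · exact Or.inl h
          · rintro (h | h)
            · exact Or.inr h
            · exact Or.inl (Or.inr h.1)
        have h10 := hrow s (E' \ B s) (fun y hy => by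
          rw [Finset.mem_sdiff] at hy ⊢
          exact ⟨hCU hs (Finset.mem_sdiff.1 (h2 hy.1)).1, hy.2⟩)
        rw [h8, h9] at h7
        linarith
  -- ranks
  set n := Fintype.card V with hn
  set r : V → ℕ := fun v => (Fintype.equivFin V v : ℕ) with hr
  have hrlt : ∀ v, r v < n := fun v => (Fintype.equivFin V v).2
  have hrinj : ∀ {u v}, r u = r v → u = v := fun {u v} h =>
    (Fintype.equivFin V).injective (Fin.ext h)
  -- minimisers
  have hexB : ∀ s : V, ∀ k : ℕ, ∃ M, (U s \ B s).filter (fun x => r x < k) ⊆ M ∧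
      M ⊆ U s \ B s ∧ ∀ K', (U s \ B s).filter (fun x => r x < k) ⊆ K' → K' ⊆ U s \ B s →
        cc R w (B s ∪ M) ≤ cc R w (B s ∪ K') := fun s k =>
    exists_minset (fun K => cc R w (B s ∪ K)) (Finset.filter_subset _ _)
  have hexX : ∀ a : V, ∀ k : ℕ, ∃ M, (C a \ X a).filter (fun x => r x < k) ⊆ M ∧
      M ⊆ C a \ X a ∧ ∀ K', (C a \ X a).filter (fun x => r x < k) ⊆ K' → K' ⊆ C a \ X a →
        cc R w (X a ∪ M) ≤ cc R w (X a ∪ K') := fun a k =>
    exists_minset (fun K => cc R w (X a ∪ K)) (Finset.filter_subset _ _)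
  choose KB hB1 hB2 hB3 using hexB
  choose KX hX1 hX2 hX3 using hexX
  set om : V → ℕ → ℝ := fun s k => cc R w (B s ∪ KB s (k + 1)) - cc R w (B s ∪ KB s k) with hom
  set al : V → ℕ → ℝ := fun a k => cc R w (X a ∪ KX a (k + 1)) - cc R w (X a ∪ KX a k) with hal
  have hmono : ∀ (S : Finset V) (k : ℕ),
      S.filter (fun x => r x < k) ⊆ S.filter (fun x => r x < k + 1) := by
    intro S k x hx
    rw [Finset.mem_filter] at hx ⊢
    exact ⟨hx.1, by omega⟩
  have hom0 : ∀ s k, 0 ≤ om s k := by
    intro s k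
    have := hB3 s k (KB s (k + 1)) ((hmono _ k).trans (hB1 s (k + 1))) (hB2 s (k + 1))
    simp only [hom]
    linarith
  have hal0 : ∀ a k, 0 ≤ al a k := by
    intro a k
    have := hX3 a k (KX a (k + 1)) ((hmono _ k).trans (hX1 a (k + 1))) (hX2 a (k + 1))
    simp only [hal]
    linarith
  have homnot : ∀ s y, y ∉ U s \ B s → om s (r y) ≤ 0 := by
    intro s y hy
    have h1 : (U s \ B s).filter (fun x => r x < r y + 1) ⊆ KB s (r y) := by
      intro x hx
      rw [Finset.mem_filter] at hx
      refine hB1 s (r y) (Finset.mem_filter.2 ⟨hx.1, ?_⟩)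
      rcases Nat.lt_or_ge (r x) (r y) with h | h
      · exact h
      · have h2 : r x = r y := by omega
        rw [hrinj h2] at hx
        exact absurd hx.1 hy
    have h2 := hB3 s (r y + 1) (KB s (r y)) h1 (hB2 s (r y))
    simp only [hom]
    linarith
  -- telescoping
  have telB : ∀ s, ∑ k ∈ Finset.range n, om s k = cc R w (U s) - cc R w (B s) := by
    intro s
    have h1 : ∑ k ∈ Finset.range n, om s k =
        cc R w (B s ∪ KB s n) - cc R w (B s ∪ KB s 0) :=
      Finset.sum_range_sub (fun k => cc R w (B s ∪ KB s k)) n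
    have h2 : KB s n = U s \ B s := by
      refine Finset.Subset.antisymm (hB2 s n) fun x hx => hB1 s n ?_
      exact Finset.mem_filter.2 ⟨hx, hrlt x⟩
    have h3 : B s ∪ (U s \ B s) = U s := Finset.union_sdiff_of_subset (hBU s)
    have h4 : cc R w (B s ∪ KB s 0) ≤ cc R w (B s ∪ ∅) :=
      hB3 s 0 ∅ (by
        intro x hx
        exact absurd (Finset.mem_filter.1 hx).2 (Nat.not_lt_zero _)) (Finset.empty_subset _)
    rw [Finset.union_empty] at h4
    have h5 := hrow s (KB s 0) (hB2 s 0)
    rw [h1, h2, h3, le_antisymm h4 h5]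
  have telX : ∀ a, ∑ k ∈ Finset.range n, al a k = cc R w (C a) - cc R w (X a) := by
    intro a
    have h1 : ∑ k ∈ Finset.range n, al a k =
        cc R w (X a ∪ KX a n) - cc R w (X a ∪ KX a 0) :=
      Finset.sum_range_sub (fun k => cc R w (X a ∪ KX a k)) n
    have h2 : KX a n = C a \ X a := by
      refine Finset.Subset.antisymm (hX2 a n) fun x hx => hX1 a n ?_
      exact Finset.mem_filter.2 ⟨hx, hrlt x⟩
    have h3 : X a ∪ (C a \ X a) = C a := Finset.union_sdiff_of_subset (hXC a)
    have h4 : cc R w (X a ∪ KX a 0) ≤ cc R w (X a ∪ ∅) :=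
      hX3 a 0 ∅ (by
        intro x hx
        exact absurd (Finset.mem_filter.1 hx).2 (Nat.not_lt_zero _)) (Finset.empty_subset _)
    rw [Finset.union_empty] at h4
    have h5 := D1 _ a (KX a 0) le_rfl (hX2 a 0)
    rw [h1, h2, h3, le_antisymm h4 h5]
  -- (D2)
  have D2 : ∀ s a y, R s a → y ∈ C a → y ∈ U s \ B s → om s (r y) ≤ al a (r y) := by
    intro s a y hsa hyC hyG
    have hyB : y ∉ B s := (Finset.mem_sdiff.1 hyG).2
    have hyX : y ∉ X a := fun h => hyB (hXB hsa h)
    set K1 := KX a (r y + 1) with hK1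
    set K2 := KB s (r y) with hK2
    have hK1sub : K1 ⊆ C a \ X a := hX2 a (r y + 1)
    have hK2sub : K2 ⊆ U s \ B s := hB2 s (r y)
    have hyK1 : y ∈ K1 := hX1 a (r y + 1)
      (Finset.mem_filter.2 ⟨Finset.mem_sdiff.2 ⟨hyC, hyX⟩, Nat.lt_succ_self _⟩)
    have hsub := cc_submod (R := R) hw' (X a ∪ K1) (B s ∪ K2)
    have hU : (X a ∪ K1) ∪ (B s ∪ K2) = B s ∪ ((K1 \ B s) ∪ K2) := by
      ext z
      simp only [Finset.mem_union, Finset.mem_sdiff]
      constructor
      · rintro ((h | h) | (h | h))
        · exact Or.inl (hXB hsa h)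
        · by_cases h' : z ∈ B s
          · exact Or.inl h'
          · exact Or.inr (Or.inl ⟨h, h'⟩)
        · exact Or.inl h
        · exact Or.inr (Or.inr h)
      · rintro (h | (h | h))
        · exact Or.inr (Or.inl h)
        · exact Or.inl (Or.inr h.1)
        · exact Or.inr (Or.inr h)
    have hI : (X a ∪ K1) ∩ (B s ∪ K2) = X a ∪ (K1 ∩ (B s ∪ K2)) := by
      ext z
      simp only [Finset.mem_union, Finset.mem_inter]
      constructor
      · rintro ⟨h | h, h'⟩
        · exact Or.inl h
        · exact Or.inr ⟨h, h'⟩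
      · rintro (h | h)
        · exact ⟨Or.inl h, Or.inl (hXB hsa h)⟩
        · exact ⟨Or.inr h.1, h.2⟩
    rw [hU, hI] at hsub
    have h1 := hB3 s (r y + 1) ((K1 \ B s) ∪ K2) (by
      intro z hz
      rw [Finset.mem_filter] at hz
      rw [Finset.mem_union, Finset.mem_sdiff]
      rcases Nat.lt_or_ge (r z) (r y) with h | h
      · exact Or.inr (hB1 s (r y) (Finset.mem_filter.2 ⟨hz.1, h⟩))
      · have h2 : r z = r y := by omega
        rw [hrinj h2]
        exact Or.inl ⟨hyK1, hyB⟩) (by
      intro z hz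
      rw [Finset.mem_union, Finset.mem_sdiff] at hz
      rcases hz with h | h
      · exact Finset.mem_sdiff.2 ⟨hCU hsa (Finset.mem_sdiff.1 (hK1sub h.1)).1, h.2⟩
      · exact hK2sub h)
    have h2 := hX3 a (r y) (K1 ∩ (B s ∪ K2)) (by
      intro z hz
      rw [Finset.mem_filter] at hz
      rw [Finset.mem_inter, Finset.mem_union]
      refine ⟨hX1 a (r y + 1) (Finset.mem_filter.2 ⟨hz.1, by omega⟩), ?_⟩
      by_cases h : z ∈ B s
      · exact Or.inl h
      · exact Or.inr (hB1 s (r y) (Finset.mem_filter.2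
          ⟨Finset.mem_sdiff.2 ⟨hCU hsa (Finset.mem_sdiff.1 hz.1).1, h⟩, hz.2⟩))) (by
      intro z hz
      exact hK1sub (Finset.mem_inter.1 hz).1)
    simp only [hom, hal]
    linarith
  -- (D3)
  have D3 : ∀ y, ∑ s, p s * om s (r y) ≤ ∑ a, p a * al a (r y) := by
    intro y
    refine layer_cake p hp' _ (fun s => om s (r y)) (fun a => al a (r y)) le_rfl
      (fun s => hom0 s _) (fun a => hal0 a _) ?_
    intro t ht
    obtain ⟨T, hT, h1⟩ := hcol y (univ.filter fun s => t ≤ om s (r y)) (by
      intro s hs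
      have h2 := (Finset.mem_filter.1 hs).2
      by_contra h3
      have h4 := homnot s y h3
      linarith)
    refine h1.trans (W_mono hp' ?_)
    intro v hv
    obtain ⟨hvC, z, hz, hzv⟩ := hT v hv
    have h2 := (Finset.mem_filter.1 hz).2
    have h3 : y ∈ U z \ B z := by
      by_contra h3
      have h4 := homnot z y h3
      linarith
    exact Finset.mem_filter.2 ⟨Finset.mem_univ _, h2.trans (D2 z v y hzv hvC h3)⟩
  -- sum over y
  have hsum : ∀ g : ℕ → ℝ, ∑ y, g (r y) = ∑ k ∈ Finset.range n, g k := by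
    intro g
    rw [← Fin.sum_univ_eq_sum_range g n]
    exact Equiv.sum_comp (Fintype.equivFin V) (fun i : Fin n => g (i : ℕ))
  calc ∑ s, p s * (cc R w (U s) - cc R w (B s))
      = ∑ s, ∑ y, p s * om s (r y) := by
        refine Finset.sum_congr rfl fun s _ => ?_
        rw [← telB s, ← hsum (om s), Finset.mul_sum]
    _ = ∑ y, ∑ s, p s * om s (r y) := Finset.sum_comm
    _ ≤ ∑ y, ∑ a, p a * al a (r y) := Finset.sum_le_sum fun y _ => D3 y
    _ = ∑ a, ∑ y, p a * al a (r y) := Finset.sum_comm
    _ = ∑ a, p a * (cc R w (C a) - cc R w (X a)) := by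
        refine Finset.sum_congr rfl fun a _ => ?_
        rw [← telX a, ← hsum (al a), Finset.mul_sum]

end Vale.Agent.P038.H102S
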