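import Vale.Agent.P038.H102S.Cheb

/-!
# P038 (H102S): (CHEB) in the literal form of LeadS (`cheb`, L6)
-/

set_option linter.unusedSectionVars false
set_option linter.unusedVariables false

namespace Vale.Agent.P038.H102S

open Finset Vale.Agent.P038.LeadS

variable {V : Type*} [Fintype V] [DecidableEq V]

/-- row `a` of a set of pairs -/
def row (X : Finset (V × V)) (a : V) : Finset V := univ.filter fun y => (a, y) ∈ X

theorem mem_row {X : Finset (V × V)} {a y : V} : y ∈ row X a ↔ (a, y) ∈ X := by
  unfold row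
  rw [Finset.mem_filter]
  exact ⟨fun h => h.2, fun h => ⟨Finset.mem_univ _, h⟩⟩

theorem mem_E {R : V → V → Prop} {X : Finset (V × V)} {q : V × V} :
    q ∈ E R X ↔ ∃ t, R t q.2 ∧ (q.1, t) ∈ X := by
  classical
  unfold E
  rw [Finset.mem_filter]
  exact ⟨fun h => h.2, fun h => ⟨Finset.mem_univ _, h⟩⟩

theorem mem_Js {R : V → V → Prop} {X : Finset (V × V)} {q : V × V} :
    q ∈ Js R X ↔ ∀ z, R z q.1 → (z, q.2) ∈ X := by
  classical
  unfold Js
  rw [Finset.mem_filter]
  exact ⟨fun h => h.2, fun h => ⟨Finset.mem_univ _, h⟩⟩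

theorem row_E {R : V → V → Prop} {X : Finset (V × V)} {a : V} :
    row (E R X) a = N R (row X a) := by
  ext y
  rw [mem_row, mem_E, mem_N]
  exact ⟨fun ⟨t, h1, h2⟩ => ⟨t, mem_row.2 h2, h1⟩, fun ⟨t, h1, h2⟩ => ⟨t, h2, mem_row.1 h1⟩⟩

theorem mu_eq (p w : V → ℝ) (X : Finset (V × V)) : mu p w X = ∑ a, p a * W w (row X a) := by
  unfold mu W row
  have h1 : ∑ q ∈ X, p q.1 * w q.2 = ∑ q : V × V, if q ∈ X then p q.1 * w q.2 else 0 := by
    rw [Finset.sum_ite_mem, Finset.univ_inter]
  rw [h1, Fintype.sum_prod_type]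
  refine Finset.sum_congr rfl fun a _ => ?_
  rw [Finset.mul_sum, Finset.sum_filter]

theorem mu_E_sub (R : V → V → Prop) (p w : V → ℝ) (X : Finset (V × V)) :
    mu p w (E R X) - mu p w X = ∑ a, p a * cc R w (row X a) := by
  rw [mu_eq, mu_eq, ← Finset.sum_sub_distrib]
  refine Finset.sum_congr rfl fun a _ => ?_
  rw [row_E, ← mul_sub]
  rfl

theorem mu_prod (p w : V → ℝ) (K : Finset V) (y : V) : mu p w (K ×ˢ {y}) = W p K * w y := by
  unfold mu W
  rw [Finset.sum_product, Finset.sum_mul]
  refine Finset.sum_congr rfl fun a _ => ?_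
  rw [Finset.sum_singleton]

theorem mu_sdiff (p w : V → ℝ) {X Y : Finset (V × V)} (h : X ⊆ Y) :
    mu p w Y - mu p w X = mu p w (Y \ X) := by
  unfold mu
  have := Finset.sum_sdiff (f := fun q : V × V => p q.1 * w q.2) h
  linarith

/-- L6 = (CHEB), abstract: no orientation needed. -/
theorem cheb (R : V → V → Prop) (hR : ∀ a, R a a) (p w : V → ℝ) (hp : ∀ a, 0 < p a)
    (hw : ∀ a, 0 < w a) (B U : Finset (V × V)) (hBU : B ⊆ U)
    (hrow : ∀ B', B ⊆ B' → B' ⊆ U → mu p w (E R B) - mu p w B ≤ mu p w (E R B') - mu p w B')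
    (hcol : ∀ U', B ⊆ U' → U' ⊆ U → mu p w U - mu p w (Js R U) ≤ mu p w U' - mu p w (Js R U')) :
    mu p w (E R U) - mu p w (E R B) + (mu p w (Js R U) - mu p w (Js R B)) ≤
      mu p w U - mu p w B + (mu p w (E R (Js R U)) - mu p w (E R (Js R B))) := by
  classical
  have key := row_core R p w hp hw (row B) (row U) (row (Js R B)) (row (Js R U))
    (fun s y hy => mem_row.2 (hBU (mem_row.1 hy)))
    (fun a y => by
      rw [mem_row, mem_Js]
      exact ⟨fun h z hz => mem_row.2 (h z hz), fun h z hz => mem_row.1 (h z hz)⟩)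
    (fun a y => by
      rw [mem_row, mem_Js]
      exact ⟨fun h z hz => mem_row.2 (h z hz), fun h z hz => mem_row.1 (h z hz)⟩)
    (by
      intro s K hK
      set B' := B ∪ ({s} ×ˢ K) with hB'
      have h1 := hrow B' Finset.subset_union_left (by
        intro q hq
        rcases Finset.mem_union.1 hq with h | h
        · exact hBU h
        · obtain ⟨h2, h3⟩ := Finset.mem_product.1 h
          have h4 := mem_row.1 (Finset.mem_sdiff.1 (hK h3)).1
          rw [← Finset.mem_singleton.1 h2] at h4
          exact h4)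
      rw [mu_E_sub, mu_E_sub] at h1
      have hs : row B' s = row B s ∪ K := by
        ext y
        rw [mem_row, hB', Finset.mem_union, Finset.mem_union, mem_row, Finset.mem_product]
        exact ⟨fun h => h.elim Or.inl fun h => Or.inr h.2,
          fun h => h.elim Or.inl fun h => Or.inr ⟨Finset.mem_singleton_self _, h⟩⟩
      have hne : ∀ a, a ≠ s → row B' a = row B a := by
        intro a ha
        ext y
        rw [mem_row, mem_row, hB', Finset.mem_union, Finset.mem_product]
        exact ⟨fun h => h.elim id fun h => absurd (Finset.mem_singleton.1 h.1) ha, Or.inl⟩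
      have h2 : ∑ a, (p a * cc R w (row B' a) - p a * cc R w (row B a)) =
          p s * cc R w (row B' s) - p s * cc R w (row B s) :=
        Finset.sum_eq_single s (fun a _ ha => by rw [hne a ha, sub_self])
          (fun h => absurd (Finset.mem_univ _) h)
      rw [Finset.sum_sub_distrib] at h2
      rw [hs] at h2
      have h3 : p s * cc R w (row B s) ≤ p s * cc R w (row B s ∪ K) := by linarith
      exact le_of_mul_le_mul_left h3 (hp s))
    (by
      intro y K hK
      set U' := U \ (K ×ˢ {y}) with hU'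
      have hsub : U' ⊆ U := Finset.sdiff_subset
      have hKU : K ×ˢ {y} ⊆ U := by
        intro q hq
        obtain ⟨h2, h3⟩ := Finset.mem_product.1 hq
        have h4 := mem_row.1 (Finset.mem_sdiff.1 (hK q.1 h2)).1
        rw [← Finset.mem_singleton.1 h3] at h4
        exact h4
      have h1 := hcol U' (by
        intro q hq
        refine Finset.mem_sdiff.2 ⟨hBU hq, fun h => ?_⟩
        obtain ⟨h2, h3⟩ := Finset.mem_product.1 h
        refine (Finset.mem_sdiff.1 (hK q.1 h2)).2 (mem_row.2 ?_)
        rw [← Finset.mem_singleton.1 h3]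
        exact hq) hsub
      have hJ : Js R U' ⊆ Js R U := fun q hq => mem_Js.2 fun z hz => hsub (mem_Js.1 hq z hz)
      set T : Finset V := univ.filter (fun v => (v, y) ∈ Js R U ∧ (v, y) ∉ Js R U') with hT
      have hJT : Js R U \ Js R U' = T ×ˢ {y} := by
        ext q
        rw [Finset.mem_sdiff, Finset.mem_product, Finset.mem_singleton, hT, Finset.mem_filter]
        constructor
        · rintro ⟨h2, h3⟩
          have h4 : q.2 = y := by
            by_contra h4
            apply h3
            rw [mem_Js] at h2 ⊢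
            intro z hz
            refine Finset.mem_sdiff.2 ⟨h2 z hz, fun h5 => h4 ?_⟩
            exact Finset.mem_singleton.1 (Finset.mem_product.1 h5).2
          have h5 : (q.1, y) = q := by rw [← h4]
          rw [h5]
          exact ⟨⟨Finset.mem_univ _, h2, h3⟩, h4⟩
        · rintro ⟨⟨_, h2, h3⟩, h4⟩
          have h5 : (q.1, y) = q := by rw [← h4]
          rw [h5] at h2 h3
          exact ⟨h2, h3⟩
      have hUU : U \ U' = K ×ˢ {y} := by
        rw [hU']
        exact Finset.sdiff_sdiff_eq_self hKU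
      have h2 : mu p w U - mu p w U' = W p K * w y := by
        rw [mu_sdiff p w hsub, hUU, mu_prod]
      have h3 : mu p w (Js R U) - mu p w (Js R U') = W p T * w y := by
        rw [mu_sdiff p w hJ, hJT, mu_prod]
      have h4 : W p K * w y ≤ W p T * w y := by linarith
      refine ⟨T, ?_, le_of_mul_le_mul_right h4 (hw y)⟩
      intro v hv
      obtain ⟨_, h5, h6⟩ := Finset.mem_filter.1 hv
      refine ⟨mem_row.2 h5, ?_⟩
      by_contra hcon
      push Not at hcon
      apply h6
      rw [mem_Js] at h5 ⊢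
      intro z hz
      refine Finset.mem_sdiff.2 ⟨h5 z hz, fun h7 => ?_⟩
      exact hcon z (Finset.mem_product.1 h7).1 hz)
  simp only [mul_sub, Finset.sum_sub_distrib] at key
  rw [← mu_E_sub, ← mu_E_sub, ← mu_E_sub, ← mu_E_sub] at key
  linarith

end Vale.Agent.P038.H102S
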